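import Vale.Agent.P166.H542.Emp

/-! Compactness of the spectra without outliers. -/

namespace Vale.Agent.P166.H542

open MeasureTheory Filter Topology Set ProbabilityTheory
open scoped ENNReal NNReal

theorem isCompact_K (K : ℝ) :
    IsCompact {μ : ProbabilityMeasure ℝ | (μ : Measure ℝ) (Icc (-K) K)ᶜ = 0} := by
  have h := isCompact_setOfPred_probabilityMeasure_mass_eq_compl_isCompact_le (E := ℝ)
    (u := fun _ => 0) (K := fun _ => Icc (-K) K) tendsto_const_nhds (fun _ => isCompact_Icc)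
    (Or.inl inferInstance)
  convert h using 1
  ext μ
  simp

theorem card_le {N : ℕ} (hN : 0 < N) (a : Fin N → ℝ) {r : ℝ} {s : Set ℝ} (hs : MeasurableSet s)
    {t : Finset (Fin N)} (ht : ∀ i ∈ t, a i ∈ s) (h : r * N ≤ t.card) :
    ENNReal.ofReal r ≤ emp a s := by
  classical
  have hN' : (0 : ℝ) < N := by exact_mod_cast hN
  rw [emp_apply a hs]
  have h1 : (t.card : ℝ) ≤ (Finset.univ.filter fun i => a i ∈ s).card := by
    exact_mod_cast Finset.card_le_card fun i hi => by simp [ht i hi]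
  have h2 : r ≤ (N : ℝ)⁻¹ * ((Finset.univ.filter fun i => a i ∈ s).card : ℝ) := by
    rw [inv_mul_eq_div, le_div_iff₀ hN']
    linarith
  refine (ENNReal.ofReal_le_ofReal h2).trans (le_of_eq ?_)
  rw [ENNReal.ofReal_mul (by positivity), ENNReal.ofReal_inv_of_pos hN', ENNReal.ofReal_natCast,
    ENNReal.ofReal_natCast]

theorem emp_zero {N : ℕ} (a : Fin N → ℝ) {s : Set ℝ} (hs : MeasurableSet s)
    (h : ∀ i, a i ∉ s) : emp a s = 0 := by
  classical
  rw [emp_apply a hs]
  have : (Finset.univ.filter fun i => a i ∈ s) = ∅ := by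
    rw [Finset.filter_eq_empty_iff]
    exact fun i _ => h i
  rw [this]
  simp

/-- A subsequence of spectra without outliers converges, to a limit which satisfies the standing
assumptions. -/
theorem exists_limit {K : ℝ} {ρ : ℝ → ℝ} (hρ : ∀ δ > 0, 0 < ρ δ) {φ : ℕ → ℕ}
    (hφ : ∀ n, 0 < φ n) (a : ∀ n, Fin (φ n) → ℝ) (ha : ∀ n, Regular K ρ (a n)) :
    ∃ μ : Measure ℝ, IsProbabilityMeasure μ ∧ IsCompact μ.support ∧ ∃ ψ : ℕ → ℕ, StrictMono ψ ∧
      Tendsto (fun n => st (emp (a (ψ n)))) atTop (𝓝 (st μ)) := by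
  have hne : ∀ n, Nonempty (Fin (φ n)) := fun n => ⟨⟨0, hφ n⟩⟩
  have hK : ∀ n i, a n i ∈ Icc (-K) K := fun n i => abs_le.1 ((ha n).bound i)
  set x : ℕ → X := fun n => (pm (emp (a n)) (isProb (a n) (hφ n)), ⨅ i, a n i, ⨆ i, a n i) with hx
  have hst : ∀ n, st (emp (a n)) = x n := fun n => by
    have := isProb (a n) (hφ n)
    rw [st_eq, support_emp (a n) (hφ n)]
    rfl
  have hmem : ∀ n, x n ∈ {μ : ProbabilityMeasure ℝ | (μ : Measure ℝ) (Icc (-K) K)ᶜ = 0} ×ˢ
      (Icc (-K) K ×ˢ Icc (-K) K) := by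
    intro n
    refine ⟨?_, ?_, ?_⟩
    · exact emp_zero (a n) measurableSet_Icc.compl fun i hi => hi (hK n i)
    · obtain ⟨i, hi⟩ := exists_eq_ciInf_of_finite (f := a n)
      show (⨅ i, a n i) ∈ Icc (-K) K
      rw [← hi]
      exact hK n i
    · obtain ⟨i, hi⟩ := exists_eq_ciSup_of_finite (f := a n)
      show (⨆ i, a n i) ∈ Icc (-K) K
      rw [← hi]
      exact hK n i
  obtain ⟨⟨μ, α, b⟩, ⟨hμK, -, -⟩, ψ, hψ, hlim⟩ :=
    ((isCompact_K K).prod (isCompact_Icc.prod isCompact_Icc)).tendsto_subseq hmem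
  rw [Prod.tendsto_iff, Prod.tendsto_iff] at hlim
  obtain ⟨l1, l2, l3⟩ := hlim
  have l1' : Tendsto (fun n => (x (ψ n)).1) atTop (𝓝 μ) := l1
  have l2' : Tendsto (fun n => ⨅ i, a (ψ n) i) atTop (𝓝 α) := l2
  have l3' : Tendsto (fun n => ⨆ i, a (ψ n) i) atTop (𝓝 b) := l3
  have hbot : ∀ n i, ⨅ i, a n i ≤ a n i := fun n i => ciInf_le (finite_range _).bddBelow i
  have htop : ∀ n i, a n i ≤ ⨆ i, a n i := fun n i => le_ciSup (finite_range _).bddAbove i
  -- the upper edge
  have hb1 : ∀ y ∈ (μ : Measure ℝ).support, y ≤ b := by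
    intro y hy
    by_contra h
    push_neg at h
    have h1 := (Measure.mem_support_iff_forall y).1 hy (Ioi ((b + y) / 2))
      (Ioi_mem_nhds (by linarith))
    have h2 := ProbabilityMeasure.le_liminf_measure_open_of_tendsto l1'
      (isOpen_Ioi (a := (b + y) / 2))
    have h3 : ∀ᶠ n in atTop, ((x (ψ n)).1 : Measure ℝ) (Ioi ((b + y) / 2)) = 0 := by
      filter_upwards [l3'.eventually (gt_mem_nhds (show b < (b + y) / 2 by linarith))] with n hn
      exact emp_zero (a (ψ n)) measurableSet_Ioi fun i hi =>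
        absurd (htop (ψ n) i) (not_le.2 (hn.trans hi))
    rw [liminf_congr h3, liminf_const] at h2
    exact absurd h1 (not_lt.2 h2)
  have hb2 : b ∈ (μ : Measure ℝ).support := by
    rw [Measure.mem_support_iff_forall]
    intro U hU
    obtain ⟨ε, hε, hεU⟩ := Metric.nhds_basis_closedBall.mem_iff.1 hU
    have h2 := ProbabilityMeasure.limsup_measure_closed_le_of_tendsto l1'
      (isClosed_Icc (a := b - ε) (b := b + ε))
    have h3 : ∀ᶠ n in atTop, ENNReal.ofReal (ρ (ε / 2)) ≤
        ((x (ψ n)).1 : Measure ℝ) (Icc (b - ε) (b + ε)) := by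
      filter_upwards [l3'.eventually (gt_mem_nhds (show b < b + ε by linarith)),
        l3'.eventually (lt_mem_nhds (show b - ε / 2 < b by linarith))] with n h4 h5
      obtain ⟨i, hi⟩ := exists_eq_ciSup_of_finite (f := a (ψ n))
      refine card_le (hφ _) (a (ψ n)) measurableSet_Icc ?_
        ((ha (ψ n)).top (ε / 2) (by linarith) i)
      intro j hj
      have h6 := (Finset.mem_filter.1 hj).2
      have h7 := htop (ψ n) j
      rw [hi] at h6
      exact ⟨by linarith, by linarith⟩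
    have h4 : ENNReal.ofReal (ρ (ε / 2)) ≤ (μ : Measure ℝ) (Icc (b - ε) (b + ε)) :=
      le_trans (le_limsup_of_frequently_le h3.frequently) h2
    refine lt_of_lt_of_le (ENNReal.ofReal_pos.2 (hρ (ε / 2) (by linarith)))
      (h4.trans (measure_mono ?_))
    rw [← Real.closedBall_eq_Icc]
    exact hεU
  -- the lower edge
  have ha1 : ∀ y ∈ (μ : Measure ℝ).support, α ≤ y := by
    intro y hy
    by_contra h
    push_neg at h
    have h1 := (Measure.mem_support_iff_forall y).1 hy (Iio ((α + y) / 2))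
      (Iio_mem_nhds (by linarith))
    have h2 := ProbabilityMeasure.le_liminf_measure_open_of_tendsto l1'
      (isOpen_Iio (a := (α + y) / 2))
    have h3 : ∀ᶠ n in atTop, ((x (ψ n)).1 : Measure ℝ) (Iio ((α + y) / 2)) = 0 := by
      filter_upwards [l2'.eventually (lt_mem_nhds (show (α + y) / 2 < α by linarith))] with n hn
      exact emp_zero (a (ψ n)) measurableSet_Iio fun i hi =>
        absurd (hbot (ψ n) i) (not_le.2 (lt_trans hi hn))
    rw [liminf_congr h3, liminf_const] at h2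
    exact absurd h1 (not_lt.2 h2)
  have ha2 : α ∈ (μ : Measure ℝ).support := by
    rw [Measure.mem_support_iff_forall]
    intro U hU
    obtain ⟨ε, hε, hεU⟩ := Metric.nhds_basis_closedBall.mem_iff.1 hU
    have h2 := ProbabilityMeasure.limsup_measure_closed_le_of_tendsto l1'
      (isClosed_Icc (a := α - ε) (b := α + ε))
    have h3 : ∀ᶠ n in atTop, ENNReal.ofReal (ρ (ε / 2)) ≤
        ((x (ψ n)).1 : Measure ℝ) (Icc (α - ε) (α + ε)) := by
      filter_upwards [l2'.eventually (gt_mem_nhds (show α < α + ε / 2 by linarith)),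
        l2'.eventually (lt_mem_nhds (show α - ε < α by linarith))] with n h4 h5
      obtain ⟨i, hi⟩ := exists_eq_ciInf_of_finite (f := a (ψ n))
      refine card_le (hφ _) (a (ψ n)) measurableSet_Icc ?_
        ((ha (ψ n)).bot (ε / 2) (by linarith) i)
      intro j hj
      have h6 := (Finset.mem_filter.1 hj).2
      have h7 := hbot (ψ n) j
      rw [hi] at h6
      exact ⟨by linarith, by linarith⟩
    have h4 : ENNReal.ofReal (ρ (ε / 2)) ≤ (μ : Measure ℝ) (Icc (α - ε) (α + ε)) :=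
      le_trans (le_limsup_of_frequently_le h3.frequently) h2
    refine lt_of_lt_of_le (ENNReal.ofReal_pos.2 (hρ (ε / 2) (by linarith)))
      (h4.trans (measure_mono ?_))
    rw [← Real.closedBall_eq_Icc]
    exact hεU
  have hsup : sSup (μ : Measure ℝ).support = b := IsGreatest.csSup_eq ⟨hb2, hb1⟩
  have hinf : sInf (μ : Measure ℝ).support = α := IsLeast.csInf_eq ⟨ha2, ha1⟩
  refine ⟨(μ : Measure ℝ), inferInstance, ?_, ψ, hψ, ?_⟩
  · refine (isCompact_Icc (a := α) (b := b)).of_isClosed_subset Measure.isClosed_support ?_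
    exact fun y hy => ⟨ha1 y hy, hb1 y hy⟩
  · rw [st_eq, hsup, hinf]
    simp_rw [hst]
    rw [Prod.tendsto_iff, Prod.tendsto_iff]
    exact ⟨l1', l2', l3'⟩

end Vale.Agent.P166.H542
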