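import Vale.Agent.P166.Defs

/-! Empirical measures and spectra without outliers. -/

namespace Vale.Agent.P166.H542

open MeasureTheory

/-- The empirical measure `N⁻¹ ∑ i, δ_{a i}` of the numbers `a 0, …, a (N - 1)`. -/
noncomputable def emp {N : ℕ} (a : Fin N → ℝ) : Measure ℝ :=
  (N : ENNReal)⁻¹ • ∑ i, Measure.dirac (a i)

/-- `a 0, …, a (N - 1)` are numbers in `[-K, K]` without outliers: for every `δ > 0` and every `i`
at least `ρ δ * N` of them are `≥ a i - δ` and at least `ρ δ * N` of them are `≤ a i + δ` (that is,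
a proportion `ρ δ` of them is within `δ` of the largest one, and of the smallest one). -/
structure Regular (K : ℝ) (ρ : ℝ → ℝ) {N : ℕ} (a : Fin N → ℝ) : Prop where
  bound : ∀ i, |a i| ≤ K
  top : ∀ δ > 0, ∀ i, ρ δ * N ≤ (Finset.univ.filter fun j => a i - δ ≤ a j).card
  bot : ∀ δ > 0, ∀ i, ρ δ * N ≤ (Finset.univ.filter fun j => a j ≤ a i + δ).card

end Vale.Agent.P166.H542
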