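import Vale.Agent.P166.H542.Defs
import Vale.Agent.P166.H295.Exist

/-! Empirical measures: support, integrals, convergence. -/

namespace Vale.Agent.P166.H542

open MeasureTheory Filter Topology Set ProbabilityTheory
open scoped ENNReal

section

variable {N : ℕ} (a : Fin N → ℝ)

theorem emp_apply {s : Set ℝ} (hs : MeasurableSet s) [DecidablePred fun i => a i ∈ s] :
    emp a s = (N : ℝ≥0∞)⁻¹ * (Finset.univ.filter fun i => a i ∈ s).card := by
  rw [emp, Measure.smul_apply, Measure.finsetSum_apply, smul_eq_mul]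
  congr 1
  simp_rw [Measure.dirac_apply' _ hs, Set.indicator_apply, Pi.one_apply]
  rw [Finset.sum_ite, Finset.sum_const_zero, add_zero, Finset.sum_const, nsmul_eq_mul, mul_one]

theorem isProb (hN : 0 < N) : IsProbabilityMeasure (emp a) := by
  classical
  refine ⟨?_⟩
  rw [emp_apply a MeasurableSet.univ]
  simp only [mem_univ, Finset.filter_true, Finset.card_univ, Fintype.card_fin]
  exact ENNReal.inv_mul_cancel (by exact_mod_cast hN.ne') (ENNReal.natCast_ne_top N)

theorem integral_emp (f : BoundedContinuousFunction ℝ ℝ) :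
    ∫ x, f x ∂(emp a) = (1 / (N : ℝ)) * ∑ i, f (a i) := by
  rw [emp, integral_smul_measure, integral_finsetSum_measure]
  · simp_rw [integral_dirac]
    rw [ENNReal.toReal_inv, ENNReal.toReal_natCast, smul_eq_mul, one_div]
  · intro i _
    exact f.integrable _

theorem support_emp (hN : 0 < N) : (emp a).support = range a := by
  classical
  ext x
  rw [Measure.mem_support_iff_forall]
  constructor
  · intro h
    by_contra hx
    have h1 : IsClosed (range a) := (finite_range a).isClosed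
    have h2 := h (range a)ᶜ (h1.isOpen_compl.mem_nhds hx)
    rw [emp_apply a h1.isOpen_compl.measurableSet] at h2
    simp at h2
  · rintro ⟨i, rfl⟩ U hU
    obtain ⟨V, hVU, hV, hiV⟩ := mem_nhds_iff.1 hU
    refine lt_of_lt_of_le ?_ (measure_mono hVU)
    rw [emp_apply a hV.measurableSet]
    refine ENNReal.mul_pos (ENNReal.inv_ne_zero.2 (ENNReal.natCast_ne_top N)) ?_
    have : (Finset.univ.filter fun i => a i ∈ V).Nonempty := ⟨i, by simp [hiV]⟩
    have h3 := Finset.card_pos.2 this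
    exact_mod_cast h3.ne'

theorem compact_emp (hN : 0 < N) : IsCompact (emp a).support := by
  rw [support_emp a hN]
  exact (finite_range a).isCompact

end

/-- The state of a spectrum: the measure and the extreme points of its support. -/
abbrev X := ProbabilityMeasure ℝ × ℝ × ℝ

/-- A probability measure. -/
def pm (μ : Measure ℝ) (h : IsProbabilityMeasure μ) : ProbabilityMeasure ℝ := ⟨μ, h⟩

open Classical in
/-- The state of a measure. -/
noncomputable def st (μ : Measure ℝ) : X :=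
  if h : IsProbabilityMeasure μ then (pm μ h, sInf μ.support, sSup μ.support)
  else (pm (Measure.dirac 0) Measure.dirac.isProbabilityMeasure, 0, 0)

theorem st_eq (μ : Measure ℝ) [h : IsProbabilityMeasure μ] :
    st μ = (pm μ h, sInf μ.support, sSup μ.support) := by
  rw [st, dif_pos h]

theorem tendsto_st {ι : Type*} {l : Filter ι} {μs : ι → Measure ℝ} {μ : Measure ℝ}
    [h : IsProbabilityMeasure μ] (hs : ∀ i, IsProbabilityMeasure (μs i)) :
    Tendsto (fun i => st (μs i)) l (𝓝 (st μ)) ↔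
      (∀ f : BoundedContinuousFunction ℝ ℝ,
        Tendsto (fun i => ∫ x, f x ∂(μs i)) l (𝓝 (∫ x, f x ∂μ))) ∧
      Tendsto (fun i => sInf (μs i).support) l (𝓝 (sInf μ.support)) ∧
      Tendsto (fun i => sSup (μs i).support) l (𝓝 (sSup μ.support)) := by
  have h1 : (fun i => st (μs i)) = fun i =>
      (pm (μs i) (hs i), sInf (μs i).support, sSup (μs i).support) := by
    funext i
    have := hs i
    rw [st_eq]
  rw [h1, st_eq μ, Prod.tendsto_iff, Prod.tendsto_iff,
    ProbabilityMeasure.tendsto_iff_forall_integral_tendsto]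
  rfl

theorem adm_iff {Λ : (N : ℕ) → Fin N → ℝ} {μ : Measure ℝ} [IsProbabilityMeasure μ] :
    Admissible Λ μ ↔ Tendsto (fun N => st (emp (Λ N))) atTop (𝓝 (st μ)) := by
  have h1 : Tendsto (fun N => st (emp (Λ N))) atTop (𝓝 (st μ)) ↔
      Tendsto (fun N : ℕ => st (emp (Λ (N + 1)))) atTop (𝓝 (st μ)) :=
    (tendsto_add_atTop_iff_nat (f := fun N => st (emp (Λ N))) 1).symm
  rw [h1, tendsto_st fun N => isProb (Λ (N + 1)) N.succ_pos]
  have h2 : ∀ N : ℕ, sInf (emp (Λ (N + 1))).support = ⨅ i, Λ (N + 1) i := fun N => by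
    rw [support_emp _ N.succ_pos]; rfl
  have h3 : ∀ N : ℕ, sSup (emp (Λ (N + 1))).support = ⨆ i, Λ (N + 1) i := fun N => by
    rw [support_emp _ N.succ_pos]; rfl
  simp_rw [h2, h3, integral_emp]
  constructor
  · rintro ⟨w, s, l⟩
    exact ⟨fun f => (tendsto_add_atTop_iff_nat
      (f := fun N : ℕ => (1 / (N : ℝ)) * ∑ i, f (Λ N i)) 1).2 (w f),
      (tendsto_add_atTop_iff_nat (f := fun N => ⨅ i, Λ N i) 1).2 s,
      (tendsto_add_atTop_iff_nat (f := fun N => ⨆ i, Λ N i) 1).2 l⟩
  · rintro ⟨w, s, l⟩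
    exact ⟨fun f => (tendsto_add_atTop_iff_nat
      (f := fun N : ℕ => (1 / (N : ℝ)) * ∑ i, f (Λ N i)) 1).1 (w f),
      (tendsto_add_atTop_iff_nat (f := fun N => ⨅ i, Λ N i) 1).1 s,
      (tendsto_add_atTop_iff_nat (f := fun N => ⨆ i, Λ N i) 1).1 l⟩

/-- Replace an array along a subsequence. -/
theorem fill {Λ0 Λ1 : (N : ℕ) → Fin N → ℝ} {x : X}
    (h0 : Tendsto (fun N => st (emp (Λ0 N))) atTop (𝓝 x)) {φ : ℕ → ℕ} (hφ : StrictMono φ)
    (h1 : Tendsto (fun n => st (emp (Λ1 (φ n)))) atTop (𝓝 x)) :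
    ∃ Λ : (N : ℕ) → Fin N → ℝ, Tendsto (fun N => st (emp (Λ N))) atTop (𝓝 x) ∧
      ∀ n, Λ (φ n) = Λ1 (φ n) := by
  classical
  refine ⟨fun N => if N ∈ range φ then Λ1 N else Λ0 N, ?_, fun n => ?_⟩
  · rw [tendsto_def]
    intro V hV
    obtain ⟨n1, hn1⟩ := mem_atTop_sets.1 (h1 hV)
    filter_upwards [h0 hV, eventually_ge_atTop (φ n1)] with N h2 h3
    change st (emp (if N ∈ range φ then Λ1 N else Λ0 N)) ∈ V
    by_cases hN : N ∈ range φ
    · rw [if_pos hN]
      obtain ⟨n, rfl⟩ := hN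
      exact hn1 n (hφ.le_iff_le.1 h3)
    · rw [if_neg hN]
      exact h2
  · show (if φ n ∈ range φ then Λ1 (φ n) else Λ0 (φ n)) = Λ1 (φ n)
    rw [if_pos (mem_range_self n)]

end Vale.Agent.P166.H542
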