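import Vale.Agent.P166.H542.Main

/-! The limiting pressure for all spectra: the final statements. -/

namespace Vale.Agent.P166.H542

open MeasureTheory Matrix Filter Topology Vale.Agent.P166.H295 Vale.Agent.P166.Conc
open Vale.Agent.P157.Par

section

variable [∀ N, MeasurableSpace (OG N)] [∀ N, BorelSpace (OG N)]
  (ν : (N : ℕ) → Measure (OG N)) [∀ N, IsProbabilityMeasure (ν N)]
  [∀ N, (ν N).IsMulLeftInvariant]

/-- The properties of the limiting pressure at one temperature. -/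
structure PP (β : ℝ) (p : Measure ℝ → ℝ) : Prop where
  glb : ∀ μ : Measure ℝ, IsProbabilityMeasure μ → IsCompact μ.support → IsGLB (vals β μ) (p μ)
  mean : ∀ μ : Measure ℝ, IsProbabilityMeasure μ → IsCompact μ.support →
    ∀ Λ : (N : ℕ) → Fin N → ℝ, Admissible Λ μ →
      Tendsto (fun N => ∫ U, pressure N β (U.1ᵀ * diagonal (Λ N) * U.1) ∂(ν N)) atTop (𝓝 (p μ))
  l2 : ∀ μ : Measure ℝ, IsProbabilityMeasure μ → IsCompact μ.support →
    ∀ Λ : (N : ℕ) → Fin N → ℝ, Admissible Λ μ →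
      Tendsto (fun N => ∫ U, (pressure N β (U.1ᵀ * diagonal (Λ N) * U.1) - p μ) ^ 2 ∂(ν N))
        atTop (𝓝 0)
  prob : ∀ μ : Measure ℝ, IsProbabilityMeasure μ → IsCompact μ.support →
    ∀ Λ : (N : ℕ) → Fin N → ℝ, Admissible Λ μ →
      ∀ ε > 0, Tendsto (fun N => (ν N).real
        {U | ε ≤ |pressure N β (U.1ᵀ * diagonal (Λ N) * U.1) - p μ|}) atTop (𝓝 0)
  as : ∀ μ : Measure ℝ, IsProbabilityMeasure μ → IsCompact μ.support →
    ∀ Λ : (N : ℕ) → Fin N → ℝ, Admissible Λ μ →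
      ∀ (Ω : Type) [MeasurableSpace Ω] (P : Measure Ω) [IsProbabilityMeasure P]
        (W : (N : ℕ) → Ω → OG N), (∀ N, Measurable (W N)) → (∀ N, P.map (W N) = ν N) →
        ∀ᵐ ω ∂P, Tendsto (fun N => pressure N β ((W N ω).1ᵀ * diagonal (Λ N) * (W N ω).1))
          atTop (𝓝 (p μ))

theorem exists_PP : ∃ p : ℝ → Measure ℝ → ℝ, ∀ β, 0 < β → PP ν β (p β) := by
  have h : ∀ β : ℝ, ∃ p : Measure ℝ → ℝ, 0 < β → PP ν β p := by
    intro β
    by_cases hβ : 0 < β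
    · obtain ⟨p, hp⟩ := exists_p ν hβ
      exact ⟨p, fun _ => ⟨fun μ h1 h2 => (hp μ h1 h2).1,
        fun μ h1 h2 Λ hΛ => ((hp μ h1 h2).2 Λ hΛ).1,
        fun μ h1 h2 Λ hΛ => ((hp μ h1 h2).2 Λ hΛ).2.1,
        fun μ h1 h2 Λ hΛ => ((hp μ h1 h2).2 Λ hΛ).2.2.1,
        fun μ h1 h2 Λ hΛ => ((hp μ h1 h2).2 Λ hΛ).2.2.2⟩⟩
    · exact ⟨fun _ => 0, fun h => absurd h hβ⟩
  choose p hp using h
  exact ⟨p, hp⟩

variable {ν}

/-- Continuity in the spectral measure. -/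
theorem PP.cont {β : ℝ} {p : Measure ℝ → ℝ} (hp : PP ν β p) (μs : ℕ → Measure ℝ) (μ : Measure ℝ)
    (hs : ∀ n, IsProbabilityMeasure (μs n)) (hc : ∀ n, IsCompact (μs n).support)
    (h : IsProbabilityMeasure μ) (hμ : IsCompact μ.support)
    (hlim : Tendsto (fun n => st (μs n)) atTop (𝓝 (st μ))) :
    Tendsto (fun n => p (μs n)) atTop (𝓝 (p μ)) :=
  cont_of (f := fun N a => ∫ U, pressure N β (U.1ᵀ * diagonal a * U.1) ∂(ν N)) hp.mean hs hc h hμ
    hlim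

omit [∀ N, (ν N).IsMulLeftInvariant] in
theorem sq_comp (N : ℕ) (β : ℝ) (a : Fin N → ℝ) (c c' : ℝ) :
    ∫ U, (pressure N β (U.1ᵀ * diagonal a * U.1) - c') ^ 2 ∂(ν N) ≤
      2 * ∫ U, (pressure N β (U.1ᵀ * diagonal a * U.1) - c) ^ 2 ∂(ν N) + 2 * (c - c') ^ 2 := by
  have h1 := integrable_sq (ν N) β c a
  have h2 := integrable_sq (ν N) β c' a
  have h3 : 2 * ∫ U, (pressure N β (U.1ᵀ * diagonal a * U.1) - c) ^ 2 ∂(ν N) +
      2 * (c - c') ^ 2 =
      ∫ U, (2 * (pressure N β (U.1ᵀ * diagonal a * U.1) - c) ^ 2 + 2 * (c - c') ^ 2) ∂(ν N) := by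
    rw [integral_add (h1.const_mul 2) (integrable_const _), integral_const_mul]
    simp
  rw [h3]
  refine integral_mono h2 ((h1.const_mul 2).add (integrable_const _)) fun U => ?_
  simp only
  nlinarith [sq_nonneg (pressure N β (U.1ᵀ * diagonal a * U.1) - c - (c - c'))]

/-- Uniform convergence at one temperature. -/
theorem PP.unif {β : ℝ} {p : Measure ℝ → ℝ} (hp : PP ν β p) {K : ℝ} {ρ : ℝ → ℝ}
    (hρ : ∀ δ > 0, 0 < ρ δ) {ε : ℝ} (hε : 0 < ε) :
    ∃ N₀ : ℕ, ∀ N ≥ N₀, ∀ a : Fin N → ℝ, Regular K ρ a →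
      ∫ U, (pressure N β (U.1ᵀ * diagonal a * U.1) - p (emp a)) ^ 2 ∂(ν N) ≤ ε :=
  unif_of (V := fun N a c => ∫ U, (pressure N β (U.1ᵀ * diagonal a * U.1) - c) ^ 2 ∂(ν N))
    hp.l2 (fun N a c c' => sq_comp N β a c c') (fun μs μ => hp.cont μs μ) hρ hε

/-- Almost sure convergence for spectra without outliers. -/
theorem PP.as_all {β : ℝ} (hβ : 0 < β) {p : Measure ℝ → ℝ} (hp : PP ν β p) {K : ℝ} {ρ : ℝ → ℝ}
    (hρ : ∀ δ > 0, 0 < ρ δ) (Λ : (N : ℕ) → Fin N → ℝ) (hΛ : ∀ᶠ N in atTop, Regular K ρ (Λ N))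
    {Ω : Type} [MeasurableSpace Ω] (P : Measure Ω) [IsProbabilityMeasure P]
    (W : (N : ℕ) → Ω → OG N) (hW : ∀ N, Measurable (W N)) (hlaw : ∀ N, P.map (W N) = ν N) :
    ∀ᵐ ω ∂P, Tendsto (fun N => pressure N β ((W N ω).1ᵀ * diagonal (Λ N) * (W N ω).1) -
      p (emp (Λ N))) atTop (𝓝 0) := by
  refine as_gen ν hβ.le (abs_nonneg K) Λ ?_ ?_ P W hW hlaw
  · filter_upwards [hΛ] with N hN i
    exact (hN.bound i).trans (le_abs_self K)
  · rw [Metric.tendsto_nhds]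
    intro ε hε
    obtain ⟨N₀, hN₀⟩ := hp.unif (K := K) hρ (show 0 < (ε / 2) ^ 2 by positivity)
    filter_upwards [hΛ, eventually_ge_atTop N₀] with N h1 h2
    rw [Real.dist_eq, sub_zero]
    refine lt_of_le_of_lt (mean_of_l2 ν β (p (emp (Λ N))) (Λ N)) ?_
    refine lt_of_le_of_lt (Real.sqrt_le_sqrt (hN₀ N h2 (Λ N) h1)) ?_
    rw [Real.sqrt_sq (by positivity)]
    linarith

/-- Comparison of two spectral measures. -/
theorem PP.comp {β : ℝ} (hβ : 0 < β) {p : Measure ℝ → ℝ} (hp : PP ν β p) {c : ℝ}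
    (μ μ' : Measure ℝ) [hμ : IsProbabilityMeasure μ] [hμ' : IsProbabilityMeasure μ']
    (hc : IsCompact μ.support) (hc' : IsCompact μ'.support)
    (h : ∀ x, μ' (Set.Iic x) ≤ μ (Set.Iic (x + c))) : p μ ≤ p μ' + β * c / 2 := by
  have h1 := hp.mean μ hμ hc _ (adm_qt μ hc)
  have h2 := (hp.mean μ' hμ' hc' _ (adm_qt μ' hc')).add_const (β * c / 2)
  refine le_of_tendsto_of_tendsto h1 h2 ?_
  filter_upwards [eventually_gt_atTop 0] with N hN
  have hN' : (0 : ℝ) < N := by exact_mod_cast hN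
  set a : Fin N → ℝ := fun i => qt μ (((i : ℕ) + 1 / 2) / N)
  set b : Fin N → ℝ := fun i => qt μ' (((i : ℕ) + 1 / 2) / N)
  have hab : ∀ i, a i ≤ b i + c := fun i => by
    refine qt_comp μ h (by positivity) ?_
    rw [div_lt_one hN']
    have : ((i : ℕ) : ℝ) + 1 ≤ N := by exact_mod_cast i.2
    linarith
  have hi : ∀ a : Fin N → ℝ,
      Integrable (fun U : OG N => pressure N β (U.1ᵀ * diagonal a * U.1)) (ν N) := fun a =>
    Conc.intg (ν N) (continuous_prU β a).measurable _ (pr_bdd β a)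
  have h3 : (∫ U, pressure N β (U.1ᵀ * diagonal b * U.1) ∂(ν N)) + β * c / 2 =
      ∫ U, (pressure N β (U.1ᵀ * diagonal b * U.1) + β * c / 2) ∂(ν N) := by
    rw [integral_add (hi b) (integrable_const _)]
    simp
  rw [h3]
  exact integral_mono (hi a) ((hi b).add (integrable_const _)) fun U => pr_comp hN hβ.le hab U

/-- The limit is Lipschitz in the temperature. -/
theorem PP.lip {β γ : ℝ} {p p' : Measure ℝ → ℝ} (hp : PP ν β p) (hp' : PP ν γ p') {K : ℝ}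
    {N₁ : ℕ} (hN₁ : 0 < N₁) (a : Fin N₁ → ℝ) (ha : ∀ i, |a i| ≤ K) :
    |p (emp a) - p' (emp a)| ≤ K / 2 * |β - γ| := by
  have hμ := isProb a hN₁
  have hc := compact_emp a hN₁
  have h1 := hp.mean (emp a) hμ hc _ (adm_qt (emp a) hc)
  have h2 := hp'.mean (emp a) hμ hc _ (adm_qt (emp a) hc)
  refine le_of_tendsto (h1.sub h2).abs ?_
  filter_upwards [eventually_gt_atTop 0] with N hN
  have hN' : (0 : ℝ) < N := by exact_mod_cast hN
  set b : Fin N → ℝ := fun i => qt (emp a) (((i : ℕ) + 1 / 2) / N) with hb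
  have hcdf1 : ProbabilityTheory.cdf (emp a) K = 1 := by
    rw [ProbabilityTheory.cdf_eq_real, measureReal_def]
    have h0 : (emp a) (Set.Iic K)ᶜ = 0 :=
      emp_zero a measurableSet_Iic.compl fun i hi => hi ((le_abs_self _).trans (ha i))
    rw [(prob_compl_eq_zero_iff measurableSet_Iic).1 h0, ENNReal.toReal_one]
  have hcdf2 : ∀ x < -K, ProbabilityTheory.cdf (emp a) x = 0 := by
    intro x hx
    rw [ProbabilityTheory.cdf_eq_real, measureReal_def]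
    have h0 : (emp a) (Set.Iic x) = 0 :=
      emp_zero a measurableSet_Iic fun i hi => by
        have h3 := (abs_le.1 (ha i)).1
        have h4 : a i ≤ x := hi
        linarith
    rw [h0, ENNReal.toReal_zero]
  have hbK : ∀ i, |b i| ≤ K := fun i => by
    have ht0 : (0 : ℝ) < (((i : ℕ) + 1 / 2) / N) := by positivity
    have ht1 : (((i : ℕ) : ℝ) + 1 / 2) / N < 1 := by
      rw [div_lt_one hN']
      have : ((i : ℕ) : ℝ) + 1 ≤ N := by exact_mod_cast i.2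
      linarith
    rw [abs_le]
    constructor
    · by_contra hcon
      have h3 := (qt_le_iff (emp a) ht0 ht1 (b i)).1 le_rfl
      rw [hcdf2 _ (not_le.1 hcon)] at h3
      linarith
    · exact (qt_le_iff (emp a) ht0 ht1 K).2 (by rw [hcdf1]; exact ht1.le)
  have hi : ∀ β : ℝ,
      Integrable (fun U : OG N => pressure N β (U.1ᵀ * diagonal b * U.1)) (ν N) := fun β =>
    Conc.intg (ν N) (continuous_prU β b).measurable _ (pr_bdd β b)
  rw [← integral_sub (hi β) (hi γ)]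
  have h3 : ∀ U : OG N, ‖pressure N β (U.1ᵀ * diagonal b * U.1) -
      pressure N γ (U.1ᵀ * diagonal b * U.1)‖ ≤ K / 2 * |β - γ| := fun U =>
    pr_lip hN (spec_conj b U hbK) β γ
  have h4 := norm_integral_le_of_norm_le_const (μ := ν N) (Eventually.of_forall h3)
  simpa using h4

/-- Uniform convergence over all spectra without outliers and all bounded temperatures. -/
theorem unif_all {p : ℝ → Measure ℝ → ℝ} (hp : ∀ β, 0 < β → PP ν β (p β)) {K : ℝ} {ρ : ℝ → ℝ}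
    (hρ : ∀ δ > 0, 0 < ρ δ) {B ε : ℝ} (hε : 0 < ε) :
    ∃ N₀ : ℕ, ∀ N ≥ N₀, ∀ a : Fin N → ℝ, Regular K ρ a → ∀ β : ℝ, 0 < β → β ≤ B →
      ∫ U, (pressure N β (U.1ᵀ * diagonal a * U.1) - p β (emp a)) ^ 2 ∂(ν N) ≤ ε := by
  set η : ℝ := √(ε / 4) / (|K| + 1) with hη
  have hη0 : 0 < η := by positivity
  have hKη : (|K| * η) ^ 2 ≤ ε / 4 := by
    have h1 : |K| * η ≤ √(ε / 4) := by
      rw [hη, ← mul_div_assoc, div_le_iff₀ (by positivity)]
      nlinarith [Real.sqrt_nonneg (ε / 4), abs_nonneg K]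
    calc (|K| * η) ^ 2 ≤ √(ε / 4) ^ 2 := pow_le_pow_left₀ (by positivity) h1 2
      _ = ε / 4 := Real.sq_sqrt (by positivity)
  obtain ⟨M, hM⟩ := exists_nat_ge (B / η)
  have hN : ∀ j : ℕ, ∃ N₀ : ℕ, ∀ N ≥ N₀, ∀ a : Fin N → ℝ, Regular K ρ a →
      ∫ U, (pressure N ((j + 1 : ℕ) * η) (U.1ᵀ * diagonal a * U.1) -
        p ((j + 1 : ℕ) * η) (emp a)) ^ 2 ∂(ν N) ≤ ε / 4 := fun j =>
    (hp _ (by positivity)).unif hρ (by linarith)
  choose N₀ hN₀ using hN
  refine ⟨max 1 ((Finset.range (M + 1)).sup N₀), fun N hN a ha β hβ hβB => ?_⟩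
  have hN0 : 0 < N := (le_max_left _ _).trans hN
  set j : ℕ := ⌊β / η⌋₊ with hj
  have hj1 : (j : ℝ) ≤ β / η := Nat.floor_le (by positivity)
  have hj2 : β / η < j + 1 := Nat.lt_floor_add_one _
  have hjM : j ≤ M := by
    have h1 : (j : ℝ) ≤ M := hj1.trans ((div_le_div_of_nonneg_right hβB hη0.le).trans hM)
    exact_mod_cast h1
  have hN1 : N₀ j ≤ N := (Finset.le_sup (Finset.mem_range.2 (Nat.lt_succ_of_le hjM))).trans
    ((le_max_right _ _).trans hN)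
  set γ : ℝ := (j + 1 : ℕ) * η with hγ
  have hγ0 : 0 < γ := by positivity
  have hβγ : |β - γ| ≤ η := by
    rw [le_div_iff₀ hη0] at hj1
    rw [div_lt_iff₀ hη0] at hj2
    rw [abs_le, hγ]
    push_cast
    constructor <;> nlinarith
  have hK : ∀ i, |a i| ≤ |K| := fun i => (ha.bound i).trans (le_abs_self K)
  have h1 := hN₀ j N hN1 a ha
  have h2 := (hp β hβ).lip (hp γ hγ0) hN0 a hK
  have i1 := integrable_sq (ν N) γ (p γ (emp a)) a
  have i2 := integrable_sq (ν N) β (p β (emp a)) a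
  have h3 : ∫ U, (pressure N β (U.1ᵀ * diagonal a * U.1) - p β (emp a)) ^ 2 ∂(ν N) ≤
      ∫ U, (2 * (pressure N γ (U.1ᵀ * diagonal a * U.1) - p γ (emp a)) ^ 2 +
        2 * (|K| * η) ^ 2) ∂(ν N) := by
    refine integral_mono i2 ((i1.const_mul 2).add (integrable_const _)) fun U => ?_
    simp only
    have h4 := pr_lip hN0 (spec_conj a U hK) β γ
    set x := pressure N β (U.1ᵀ * diagonal a * U.1)
    set y := pressure N γ (U.1ᵀ * diagonal a * U.1)
    set s := p β (emp a)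
    set t := p γ (emp a)
    have h5 : |(x - s) - (y - t)| ≤ |K| * η := by
      have h6 : (x - s) - (y - t) = (x - y) - (s - t) := by ring
      rw [h6]
      have h7 := abs_sub (x - y) (s - t)
      have h8 : |K| / 2 * |β - γ| ≤ |K| / 2 * η :=
        mul_le_mul_of_nonneg_left hβγ (by positivity)
      linarith
    have h6 : ((x - s) - (y - t)) ^ 2 ≤ (|K| * η) ^ 2 := by
      rw [← sq_abs ((x - s) - (y - t))]
      exact pow_le_pow_left₀ (abs_nonneg _) h5 2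
    nlinarith [sq_nonneg ((x - s) - 2 * (y - t))]
  refine h3.trans ?_
  rw [integral_add (i1.const_mul 2) (integrable_const _), integral_const_mul]
  simp only [integral_const, probReal_univ, smul_eq_mul, one_mul]
  linarith

/-- Almost sure convergence, uniformly in bounded temperatures. -/
theorem as_unif {p : ℝ → Measure ℝ → ℝ} (hp : ∀ β, 0 < β → PP ν β (p β)) {K : ℝ} {ρ : ℝ → ℝ}
    (hρ : ∀ δ > 0, 0 < ρ δ) (Λ : (N : ℕ) → Fin N → ℝ) (hΛ : ∀ᶠ N in atTop, Regular K ρ (Λ N))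
    {Ω : Type} [MeasurableSpace Ω] (P : Measure Ω) [IsProbabilityMeasure P]
    (W : (N : ℕ) → Ω → OG N) (hW : ∀ N, Measurable (W N)) (hlaw : ∀ N, P.map (W N) = ν N) :
    ∀ᵐ ω ∂P, ∀ B ε : ℝ, 0 < ε → ∀ᶠ N in atTop, ∀ β : ℝ, 0 < β → β ≤ B →
      |pressure N β ((W N ω).1ᵀ * diagonal (Λ N) * (W N ω).1) - p β (emp (Λ N))| ≤ ε := by
  have h1 : ∀ᵐ ω ∂P, ∀ j n : ℕ, Tendsto (fun N =>
      pressure N ((j + 1 : ℕ) * (1 / (n + 1 : ℝ))) ((W N ω).1ᵀ * diagonal (Λ N) * (W N ω).1) -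
      p ((j + 1 : ℕ) * (1 / (n + 1 : ℝ))) (emp (Λ N))) atTop (𝓝 0) := by
    refine ae_all_iff.2 fun j => ae_all_iff.2 fun n => ?_
    have h0 : (0 : ℝ) < (j + 1 : ℕ) * (1 / (n + 1 : ℝ)) := by positivity
    exact (hp _ h0).as_all h0 hρ Λ hΛ P W hW hlaw
  filter_upwards [h1] with ω hω
  intro B ε hε
  obtain ⟨n, hn⟩ := exists_nat_ge (2 * |K| / ε)
  set η : ℝ := 1 / (n + 1 : ℝ) with hη
  have hη0 : 0 < η := by positivity
  have hKη : |K| * η ≤ ε / 2 := by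
    rw [hη, mul_one_div, div_le_iff₀ (by positivity)]
    rw [div_le_iff₀ hε] at hn
    nlinarith
  obtain ⟨M, hM⟩ := exists_nat_ge (B / η)
  have h2 : ∀ᶠ N in atTop, ∀ j ∈ Finset.range (M + 1),
      |pressure N ((j + 1 : ℕ) * η) ((W N ω).1ᵀ * diagonal (Λ N) * (W N ω).1) -
      p ((j + 1 : ℕ) * η) (emp (Λ N))| < ε / 2 := by
    rw [Finset.eventually_all]
    intro j _
    have h3 := (Metric.tendsto_nhds.1 (hω j n)) (ε / 2) (by linarith)
    filter_upwards [h3] with N hN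
    rwa [Real.dist_eq, sub_zero] at hN
  filter_upwards [h2, hΛ, eventually_gt_atTop 0] with N h3 h4 hN0 β hβ hβB
  set j : ℕ := ⌊β / η⌋₊ with hj
  have hj1 : (j : ℝ) ≤ β / η := Nat.floor_le (by positivity)
  have hj2 : β / η < j + 1 := Nat.lt_floor_add_one _
  have hjM : j ≤ M := by
    have h1 : (j : ℝ) ≤ M := hj1.trans ((div_le_div_of_nonneg_right hβB hη0.le).trans hM)
    exact_mod_cast h1
  have h5 := h3 j (Finset.mem_range.2 (Nat.lt_succ_of_le hjM))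
  set γ : ℝ := (j + 1 : ℕ) * η with hγ
  have hγ0 : 0 < γ := by positivity
  have hβγ : |β - γ| ≤ η := by
    rw [le_div_iff₀ hη0] at hj1
    rw [div_lt_iff₀ hη0] at hj2
    rw [abs_le, hγ]
    push_cast
    constructor <;> nlinarith
  have hK : ∀ i, |Λ N i| ≤ |K| := fun i => (h4.bound i).trans (le_abs_self K)
  have h6 := (hp β hβ).lip (hp γ hγ0) hN0 (Λ N) hK
  have h7 := pr_lip hN0 (spec_conj (Λ N) (W N ω) hK) β γ
  have h8 : |K| / 2 * |β - γ| ≤ |K| / 2 * η := mul_le_mul_of_nonneg_left hβγ (by positivity)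
  rw [abs_le] at h6 h7 ⊢
  rw [abs_lt] at h5
  constructor <;> linarith [h6.1, h6.2, h7.1, h7.2, h5.1, h5.2]

end

end Vale.Agent.P166.H542
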