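import Vale.Agent.P166.H542.Cpt

/-! From the convergence for the standing assumptions to continuity of the limit and to uniform
convergence, for abstract functionals. -/

namespace Vale.Agent.P166.H542

open MeasureTheory Filter Topology Set ProbabilityTheory

/-- The limit is continuous. -/
theorem cont_of {f : (N : ℕ) → (Fin N → ℝ) → ℝ} {p : Measure ℝ → ℝ}
    (hp : ∀ μ : Measure ℝ, IsProbabilityMeasure μ → IsCompact μ.support →
      ∀ Λ : (N : ℕ) → Fin N → ℝ, Admissible Λ μ →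
        Tendsto (fun N => f N (Λ N)) atTop (𝓝 (p μ)))
    {μs : ℕ → Measure ℝ} (hs : ∀ n, IsProbabilityMeasure (μs n))
    (hc : ∀ n, IsCompact (μs n).support) {μ : Measure ℝ} (h : IsProbabilityMeasure μ)
    (hμ : IsCompact μ.support) (hlim : Tendsto (fun n => st (μs n)) atTop (𝓝 (st μ))) :
    Tendsto (fun n => p (μs n)) atTop (𝓝 (p μ)) := by
  letI : MetricSpace X := TopologicalSpace.metrizableSpaceMetric X
  have hex : ∀ n, ∃ Λ : (N : ℕ) → Fin N → ℝ, Admissible Λ (μs n) := fun n => by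
    have := hs n
    exact H295.exists_admissible (μs n) (hc n)
  choose L hL using hex
  have hev : ∀ n, ∀ᶠ N in atTop, dist (st (emp (L n N))) (st (μs n)) < 1 / ((n : ℝ) + 1) ∧
      dist (f N (L n N)) (p (μs n)) < 1 / ((n : ℝ) + 1) := by
    intro n
    have := hs n
    have h1 := adm_iff.1 (hL n)
    have h2 := hp (μs n) (hs n) (hc n) (L n) (hL n)
    have h3 : (0 : ℝ) < 1 / ((n : ℝ) + 1) := by positivity
    exact (Metric.tendsto_nhds.1 h1 _ h3).and (Metric.tendsto_nhds.1 h2 _ h3)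
  obtain ⟨φ, hφ, hφ2⟩ := extraction_forall_of_eventually hev
  set Λ1 : (N : ℕ) → Fin N → ℝ := fun N => L (Function.invFun φ N) N with hΛ1
  have hinv : ∀ n, Λ1 (φ n) = L n (φ n) := fun n => by
    rw [hΛ1]
    simp only [Function.leftInverse_invFun hφ.injective n]
  have h0 : Tendsto (fun n : ℕ => 1 / ((n : ℝ) + 1)) atTop (𝓝 0) :=
    tendsto_one_div_add_atTop_nhds_zero_nat
  have h1 : Tendsto (fun n => st (emp (Λ1 (φ n)))) atTop (𝓝 (st μ)) := by
    refine (tendsto_iff_of_dist ?_).2 hlim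
    refine squeeze_zero (fun n => dist_nonneg) (fun n => ?_) h0
    rw [hinv]
    exact (hφ2 n).1.le
  obtain ⟨Λ0, hΛ0⟩ := H295.exists_admissible μ hμ
  obtain ⟨Λ, hΛ, hΛφ⟩ := fill (adm_iff.1 hΛ0) hφ h1
  have h2 := (hp μ h hμ Λ (adm_iff.2 hΛ)).comp hφ.tendsto_atTop
  refine (tendsto_iff_of_dist ?_).1 h2
  refine squeeze_zero (fun n => dist_nonneg) (fun n => ?_) h0
  have h3 := (hφ2 n).2.le
  simp only [Function.comp_apply, hΛφ, hinv]
  exact h3

/-- Uniform convergence over all spectra without outliers. -/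
theorem unif_of {V : (N : ℕ) → (Fin N → ℝ) → ℝ → ℝ} {p : Measure ℝ → ℝ}
    (hp : ∀ μ : Measure ℝ, IsProbabilityMeasure μ → IsCompact μ.support →
      ∀ Λ : (N : ℕ) → Fin N → ℝ, Admissible Λ μ →
        Tendsto (fun N => V N (Λ N) (p μ)) atTop (𝓝 0))
    (hV : ∀ N a c c', V N a c' ≤ 2 * V N a c + 2 * (c - c') ^ 2)
    (hcont : ∀ (μs : ℕ → Measure ℝ) (μ : Measure ℝ), (∀ n, IsProbabilityMeasure (μs n)) →
      (∀ n, IsCompact (μs n).support) → IsProbabilityMeasure μ → IsCompact μ.support →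
      Tendsto (fun n => st (μs n)) atTop (𝓝 (st μ)) →
      Tendsto (fun n => p (μs n)) atTop (𝓝 (p μ)))
    {K : ℝ} {ρ : ℝ → ℝ} (hρ : ∀ δ > 0, 0 < ρ δ) {ε : ℝ} (hε : 0 < ε) :
    ∃ N₀ : ℕ, ∀ N ≥ N₀, ∀ a : Fin N → ℝ, Regular K ρ a → V N a (p (emp a)) ≤ ε := by
  by_contra hcon
  push Not at hcon
  have hex : ∀ N : ℕ, ∃ a : Fin N → ℝ, (∃ a : Fin N → ℝ, Regular K ρ a ∧
      ε < V N a (p (emp a))) → Regular K ρ a ∧ ε < V N a (p (emp a)) := by
    intro N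
    by_cases h : ∃ a : Fin N → ℝ, Regular K ρ a ∧ ε < V N a (p (emp a))
    · obtain ⟨a, ha⟩ := h
      exact ⟨a, fun _ => ha⟩
    · exact ⟨fun _ => 0, fun h' => absurd h' h⟩
  choose Λ1 hΛ1 using hex
  have hfreq : ∃ᶠ N in atTop, 0 < N ∧ ∃ a : Fin N → ℝ, Regular K ρ a ∧
      ε < V N a (p (emp a)) := by
    rw [frequently_atTop]
    intro n
    obtain ⟨N, hN, a, ha⟩ := hcon (max n 1)
    exact ⟨N, (le_max_left _ _).trans hN, (le_max_right n 1).trans hN, a, ha⟩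
  obtain ⟨φ, hφ, hφ2⟩ := extraction_of_frequently_atTop hfreq
  obtain ⟨μ, hμ, hμc, ψ, hψ, hlim⟩ := exists_limit hρ (fun n => (hφ2 n).1)
    (fun n => Λ1 (φ n)) fun n => (hΛ1 (φ n) (hφ2 n).2).1
  obtain ⟨Λ0, hΛ0⟩ := H295.exists_admissible μ hμc
  obtain ⟨Λ, hΛ, hΛφ⟩ := fill (adm_iff.1 hΛ0) (hφ.comp hψ) hlim
  have h1 := (hp μ hμ hμc Λ (adm_iff.2 hΛ)).comp (hφ.comp hψ).tendsto_atTop
  have h2 := hcont (fun n => emp (Λ1 (φ (ψ n)))) μ (fun n => isProb _ (hφ2 _).1)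
    (fun n => compact_emp _ (hφ2 _).1) hμ hμc hlim
  have h3 : Tendsto (fun n => 2 * V (φ (ψ n)) (Λ1 (φ (ψ n))) (p μ) +
      2 * (p μ - p (emp (Λ1 (φ (ψ n))))) ^ 2) atTop (𝓝 (2 * 0 + 2 * (p μ - p μ) ^ 2)) := by
    refine Tendsto.add (Tendsto.const_mul _ ?_) (Tendsto.const_mul _
      ((tendsto_const_nhds.sub h2).pow 2))
    refine h1.congr fun n => ?_
    simp only [Function.comp_apply]
    rw [show Λ (φ (ψ n)) = Λ1 (φ (ψ n)) from hΛφ n]
  rw [sub_self, zero_pow two_ne_zero, mul_zero, add_zero] at h3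
  obtain ⟨n, hn⟩ := (h3.eventually (gt_mem_nhds hε)).exists
  have h4 := (hΛ1 (φ (ψ n)) (hφ2 (ψ n)).2).2
  have h5 := hV (φ (ψ n)) (Λ1 (φ (ψ n))) (p μ) (p (emp (Λ1 (φ (ψ n)))))
  linarith

end Vale.Agent.P166.H542
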