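import Vale.Agent.P166.H542.Quant
import Vale.Agent.P166.H295.Main

/-! The limiting pressure for all spectra. -/

namespace Vale.Agent.P166.H542

open MeasureTheory Matrix Filter Topology Vale.Agent.P166.H295 Vale.Agent.P166.Conc
open Vale.Agent.P157.Par

section

variable [∀ N, MeasurableSpace (OG N)] [∀ N, BorelSpace (OG N)]
  (ν : (N : ℕ) → Measure (OG N)) [∀ N, IsProbabilityMeasure (ν N)]
  [∀ N, (ν N).IsMulLeftInvariant]

/-- Almost sure convergence, for bounded spectra. -/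
theorem as_gen {β K : ℝ} (hβ : 0 ≤ β) (hK : 0 ≤ K) (Λ : (N : ℕ) → Fin N → ℝ)
    (hΛ : ∀ᶠ N in atTop, ∀ i, |Λ N i| ≤ K) {c : ℕ → ℝ}
    (hc : Tendsto (fun N => (∫ U, pressure N β (U.1ᵀ * diagonal (Λ N) * U.1) ∂(ν N)) - c N)
      atTop (𝓝 0))
    {Ω : Type} [MeasurableSpace Ω] (P : Measure Ω) [IsProbabilityMeasure P]
    (W : (N : ℕ) → Ω → OG N) (hW : ∀ N, Measurable (W N)) (hlaw : ∀ N, P.map (W N) = ν N) :
    ∀ᵐ ω ∂P, Tendsto (fun N => pressure N β ((W N ω).1ᵀ * diagonal (Λ N) * (W N ω).1) - c N)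
      atTop (𝓝 0) := by
  obtain ⟨C, hC, h4⟩ := F.fourth_tail hβ hK
  have key : ∀ j : ℕ, ∀ᵐ ω ∂P, ∀ᶠ N in atTop, (∀ i, |Λ N i| ≤ K) →
      |pressure N β ((W N ω).1ᵀ * diagonal (Λ N) * (W N ω).1) -
        ∫ U, pressure N β (U.1ᵀ * diagonal (Λ N) * U.1) ∂(ν N)| < 1 / ((j : ℝ) + 1) := by
    intro j
    set ε : ℝ := 1 / ((j : ℝ) + 1) with hε
    have hε0 : 0 < ε := by positivity
    set s : ℕ → Set Ω := fun N => {ω | 0 < N ∧ (∀ i, |Λ N i| ≤ K) ∧
      ε ≤ |pressure N β ((W N ω).1ᵀ * diagonal (Λ N) * (W N ω).1) -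
        ∫ U, pressure N β (U.1ᵀ * diagonal (Λ N) * U.1) ∂(ν N)|} with hs
    have hsum : ∑' N, P (s N) ≠ ⊤ := by
      have h1 : ∀ N, P (s N) ≤ ENNReal.ofReal (C / ε ^ 4 * (1 / (N * √N))) := by
        intro N
        by_cases hN : 0 < N ∧ ∀ i, |Λ N i| ≤ K
        · set B : Set (OG N) := {U | ε ≤ |pressure N β (U.1ᵀ * diagonal (Λ N) * U.1) -
            ∫ V, pressure N β (V.1ᵀ * diagonal (Λ N) * V.1) ∂(ν N)|} with hB
          have hBm : MeasurableSet B :=
            measurableSet_le measurable_const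
              (((continuous_prU β (Λ N)).measurable.sub measurable_const).abs)
          have h2 := h4 N (ν N) (Λ N) hN.1 hN.2 ε hε0
          have h3 : P (s N) ≤ ν N B := by
            rw [← hlaw N, Measure.map_apply (hW N) hBm]
            exact measure_mono fun ω hω => hω.2.2
          refine h3.trans ?_
          rw [← ENNReal.ofReal_toReal (measure_ne_top (ν N) B)]
          exact ENNReal.ofReal_le_ofReal h2
        · have h3 : s N = ∅ := by
            refine Set.eq_empty_of_forall_notMem fun ω hω => hN ⟨hω.1, hω.2.1⟩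
          rw [h3, measure_empty]
          exact zero_le
      refine ne_top_of_le_ne_top ?_ (ENNReal.tsum_le_tsum h1)
      have hsm : Summable fun N : ℕ => C / ε ^ 4 * (1 / ((N : ℝ) * √N)) := by
        refine Summable.mul_left _ ?_
        have h4 := (Real.summable_one_div_nat_rpow (p := 3 / 2)).2 (by norm_num)
        refine h4.congr fun N => ?_
        congr 1
        rcases Nat.eq_zero_or_pos N with rfl | hN
        · norm_num
        · have hN' : (0 : ℝ) < N := by exact_mod_cast hN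
          rw [Real.sqrt_eq_rpow]
          nth_rewrite 2 [← Real.rpow_one (N : ℝ)]
          rw [← Real.rpow_add hN']
          norm_num
      exact hsm.tsum_ofReal_ne_top
    filter_upwards [ae_eventually_notMem hsum] with ω hω
    filter_upwards [hω, eventually_gt_atTop 0] with N h1 h2 h3
    by_contra hcon
    exact h1 ⟨h2, h3, not_lt.1 hcon⟩
  filter_upwards [ae_all_iff.2 key] with ω hω
  have h1 : Tendsto (fun N => pressure N β ((W N ω).1ᵀ * diagonal (Λ N) * (W N ω).1) -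
      ∫ U, pressure N β (U.1ᵀ * diagonal (Λ N) * U.1) ∂(ν N)) atTop (𝓝 0) := by
    rw [Metric.tendsto_nhds]
    intro ε hε
    obtain ⟨j, hj⟩ := exists_nat_one_div_lt hε
    filter_upwards [hω j, hΛ] with N hN hb
    rw [Real.dist_eq, sub_zero]
    exact (hN hb).trans hj
  have h2 := h1.add hc
  rw [zero_add] at h2
  exact h2.congr fun N => by ring

/-- The mean from the second moment. -/
theorem mean_of_l2 {N : ℕ} (β c : ℝ) (a : Fin N → ℝ) :
    |(∫ U, pressure N β (U.1ᵀ * diagonal a * U.1) ∂(ν N)) - c| ≤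
      √(∫ U, (pressure N β (U.1ᵀ * diagonal a * U.1) - c) ^ 2 ∂(ν N)) := by
  have hi : Integrable (fun U : OG N => pressure N β (U.1ᵀ * diagonal a * U.1)) (ν N) :=
    Conc.intg (ν N) (continuous_prU β a).measurable _ (pr_bdd β a)
  have h2 := integrable_sq (ν N) β c a
  apply Real.abs_le_sqrt
  have h1 : (∫ U, pressure N β (U.1ᵀ * diagonal a * U.1) ∂(ν N)) - c =
      ∫ U, (pressure N β (U.1ᵀ * diagonal a * U.1) - c) ∂(ν N) := by
    rw [integral_sub hi (integrable_const _)]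
    simp
  rw [h1]
  set X : OG N → ℝ := fun U => pressure N β (U.1ᵀ * diagonal a * U.1) - c with hX
  have hiX : Integrable X (ν N) := hi.sub (integrable_const _)
  have h3 : 0 ≤ ∫ U, (X U - ∫ V, X V ∂(ν N)) ^ 2 ∂(ν N) := integral_nonneg fun _ => sq_nonneg _
  have h4 : ∫ U, (X U - ∫ V, X V ∂(ν N)) ^ 2 ∂(ν N) =
      (∫ U, X U ^ 2 ∂(ν N)) - (∫ V, X V ∂(ν N)) ^ 2 := by
    have h5 : ∀ U, (X U - ∫ V, X V ∂(ν N)) ^ 2 =
        X U ^ 2 - 2 * (∫ V, X V ∂(ν N)) * X U + (∫ V, X V ∂(ν N)) ^ 2 := fun U => by ring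
    simp_rw [h5]
    have h6 : Integrable (fun U => X U ^ 2) (ν N) := h2
    have h7 : Integrable (fun U => 2 * (∫ V, X V ∂(ν N)) * X U) (ν N) := hiX.const_mul _
    have h8 : Integrable (fun U => X U ^ 2 - 2 * (∫ V, X V ∂(ν N)) * X U) (ν N) := h6.sub h7
    rw [integral_add h8 (integrable_const _), integral_sub h6 h7, integral_const_mul]
    simp only [integral_const, probReal_univ, smul_eq_mul, one_mul]
    ring
  rw [h4] at h3
  linarith

/-- The limiting pressure as a function of the spectral measure. -/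
theorem exists_p {β : ℝ} (hβ : 0 < β) : ∃ p : Measure ℝ → ℝ,
    ∀ μ : Measure ℝ, IsProbabilityMeasure μ → IsCompact μ.support →
      IsGLB (vals β μ) (p μ) ∧ ∀ Λ : (N : ℕ) → Fin N → ℝ, Admissible Λ μ →
        Tendsto (fun N => ∫ U, pressure N β (U.1ᵀ * diagonal (Λ N) * U.1) ∂(ν N)) atTop
          (𝓝 (p μ)) ∧
        Tendsto (fun N => ∫ U, (pressure N β (U.1ᵀ * diagonal (Λ N) * U.1) - p μ) ^ 2 ∂(ν N))
          atTop (𝓝 0) ∧
        (∀ ε > 0, Tendsto (fun N => (ν N).real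
          {U | ε ≤ |pressure N β (U.1ᵀ * diagonal (Λ N) * U.1) - p μ|}) atTop (𝓝 0)) ∧
        ∀ (Ω : Type) [MeasurableSpace Ω] (P : Measure Ω) [IsProbabilityMeasure P]
          (W : (N : ℕ) → Ω → OG N), (∀ N, Measurable (W N)) → (∀ N, P.map (W N) = ν N) →
          ∀ᵐ ω ∂P, Tendsto (fun N => pressure N β ((W N ω).1ᵀ * diagonal (Λ N) * (W N ω).1))
            atTop (𝓝 (p μ)) := by
  have h : ∀ μ : Measure ℝ, ∃ p : ℝ, IsProbabilityMeasure μ → IsCompact μ.support →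
      IsGLB (vals β μ) p ∧ ∀ Λ : (N : ℕ) → Fin N → ℝ, Admissible Λ μ →
        Tendsto (fun N => ∫ U, pressure N β (U.1ᵀ * diagonal (Λ N) * U.1) ∂(ν N)) atTop
          (𝓝 p) ∧
        Tendsto (fun N => ∫ U, (pressure N β (U.1ᵀ * diagonal (Λ N) * U.1) - p) ^ 2 ∂(ν N))
          atTop (𝓝 0) ∧
        (∀ ε > 0, Tendsto (fun N => (ν N).real
          {U | ε ≤ |pressure N β (U.1ᵀ * diagonal (Λ N) * U.1) - p|}) atTop (𝓝 0)) ∧
        ∀ (Ω : Type) [MeasurableSpace Ω] (P : Measure Ω) [IsProbabilityMeasure P]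
          (W : (N : ℕ) → Ω → OG N), (∀ N, Measurable (W N)) → (∀ N, P.map (W N) = ν N) →
          ∀ᵐ ω ∂P, Tendsto (fun N => pressure N β ((W N ω).1ᵀ * diagonal (Λ N) * (W N ω).1))
            atTop (𝓝 p) := by
    intro μ
    by_cases hμ : IsProbabilityMeasure μ ∧ IsCompact μ.support
    · obtain ⟨hμ1, hμ2⟩ := hμ
      obtain ⟨p, hp, h1⟩ := full_formula ν hβ μ hμ2
      obtain ⟨p', hp', h2⟩ := F.mean_of_grid ν hβ (H.upper_fin ν hβ) (L.lower_LBg ν hβ) μ hμ2
      have hpp : p' = p := hp'.unique hp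
      rw [hpp] at h2
      exact ⟨p, fun _ _ => ⟨hp, fun Λ hΛ => ⟨h2 Λ hΛ, h1 Λ hΛ⟩⟩⟩
    · exact ⟨0, fun h1 h2 => absurd ⟨h1, h2⟩ hμ⟩
  choose p hp using h
  exact ⟨p, hp⟩

end

end Vale.Agent.P166.H542
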