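import Vale.Agent.P166.H542.Lim
import Vale.Agent.P166.H295.Lin

/-! Comparison of the pressures of two spectra. -/

namespace Vale.Agent.P166.H542

open MeasureTheory ProbabilityTheory Set Filter Topology
open Vale.Agent.P166.H295
open scoped ENNReal Matrix

section

variable (μ : Measure ℝ)

theorem adm_qt [IsProbabilityMeasure μ] (hμ : IsCompact μ.support) :
    Admissible (fun (N : ℕ) (i : Fin N) => qt μ (((i : ℕ) + 1 / 2) / N)) μ := by
  have hne : μ.support.Nonempty := Measure.nonempty_support (IsProbabilityMeasure.ne_zero μ)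
  have ha := hμ.sInf_mem hne
  have hb := hμ.sSup_mem hne
  set a := sInf μ.support
  set b := sSup μ.support
  have hsup : ∀ x ∈ μ.support, a ≤ x ∧ x ≤ b := fun x hx =>
    ⟨csInf_le hμ.bddBelow hx, le_csSup hμ.bddAbove hx⟩
  have hlow : ∀ x < a, cdf μ x = 0 := by
    intro x hx
    rw [cdf_eq_real, measureReal_eq_zero_iff]
    have hsub : Iic x ⊆ μ.supportᶜ := fun y hy hys =>
      absurd (hsup y hys).1 (not_le.2 (lt_of_le_of_lt hy hx))
    exact measure_mono_null hsub Measure.measure_compl_support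
  have hhigh : cdf μ b = 1 := by
    have hsub : (Iic b)ᶜ ⊆ μ.supportᶜ := fun y hy hys => hy (hsup y hys).2
    have h0 : μ (Iic b) = 1 := by
      rw [← prob_compl_eq_zero_iff measurableSet_Iic]
      exact measure_mono_null hsub Measure.measure_compl_support
    rw [cdf_eq_real, measureReal_def, h0, ENNReal.toReal_one]
  have hpos : ∀ c, a < c → 0 < cdf μ c := by
    intro c hc
    rw [cdf_eq_real, measureReal_def, ENNReal.toReal_pos_iff]
    refine ⟨?_, measure_lt_top _ _⟩
    have := (Measure.mem_support_iff_forall a).1 ha (Iio c) (Iio_mem_nhds hc)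
    exact this.trans_le (measure_mono Iio_subset_Iic_self)
  have hlt : ∀ c, c < b → cdf μ c < 1 := by
    intro c hc
    have h1 := (Measure.mem_support_iff_forall b).1 hb (Ioi c) (Ioi_mem_nhds hc)
    have h2 : μ.real (Ioi c) = 1 - μ.real (Iic c) := by
      rw [← compl_Iic, probReal_compl_eq_one_sub measurableSet_Iic]
    have h3 : 0 < μ.real (Ioi c) := by
      rw [measureReal_def, ENNReal.toReal_pos_iff]
      exact ⟨h1, measure_lt_top _ _⟩
    rw [cdf_eq_real]
    linarith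
  set Λ : (N : ℕ) → Fin N → ℝ := fun N i => qt μ (((i : ℕ) + 1 / 2) / N) with hΛ
  have hmem : ∀ (N : ℕ) (i : Fin N), (((i : ℕ) : ℝ) + 1 / 2) / N ∈ Ioo (0 : ℝ) 1 := by
    intro N i
    have hN' : (0 : ℝ) < N := by exact_mod_cast i.pos
    constructor
    · positivity
    · rw [div_lt_one hN']
      have : ((i : ℕ) : ℝ) + 1 ≤ N := by exact_mod_cast i.2
      linarith
  have hA : ∀ (N : ℕ) (i : Fin N), a ≤ Λ N i := by
    intro N i
    by_contra h
    have h1 := (qt_le_iff μ (hmem N i).1 (hmem N i).2 (Λ N i)).1 le_rfl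
    rw [hlow _ (not_le.1 h)] at h1
    exact absurd (hmem N i).1 (not_lt.2 h1)
  have hB : ∀ (N : ℕ) (i : Fin N), Λ N i ≤ b := by
    intro N i
    rw [hΛ, qt_le_iff μ (hmem N i).1 (hmem N i).2, hhigh]
    exact (hmem N i).2.le
  refine ⟨weak_qt μ, ?_, ?_⟩
  · rw [tendsto_order]
    constructor
    · intro c hc
      filter_upwards [eventually_gt_atTop 0] with N hN
      have : Nonempty (Fin N) := ⟨⟨0, hN⟩⟩
      exact hc.trans_le (le_ciInf fun i => hA N i)
    · intro c hc
      obtain ⟨c', hc1, hc2⟩ := exists_between hc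
      have h1 : Tendsto (fun N : ℕ => (1 / 2 : ℝ) / N) atTop (𝓝 0) :=
        tendsto_const_div_atTop_nhds_zero_nat _
      filter_upwards [eventually_gt_atTop 0, h1.eventually (gt_mem_nhds (hpos c' hc1))]
        with N hN h2
      refine lt_of_le_of_lt (ciInf_le ⟨a, fun y ⟨i, hi⟩ => hi ▸ hA N i⟩ ⟨0, hN⟩) ?_
      refine lt_of_le_of_lt ?_ hc2
      have h3 := hmem N ⟨0, hN⟩
      rw [hΛ, qt_le_iff μ h3.1 h3.2]
      refine le_trans (le_of_eq ?_) h2.le
      simp
  · rw [tendsto_order]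
    constructor
    · intro c hc
      have h1 : Tendsto (fun N : ℕ => (1 / 2 : ℝ) / N) atTop (𝓝 0) :=
        tendsto_const_div_atTop_nhds_zero_nat _
      filter_upwards [eventually_gt_atTop 0, h1.eventually (gt_mem_nhds (sub_pos.2 (hlt c hc)))]
        with N hN h2
      have hN' : (0 : ℝ) < N := by exact_mod_cast hN
      refine lt_of_lt_of_le ?_ (le_ciSup ⟨b, fun y ⟨i, hi⟩ => hi ▸ hB N i⟩
        (⟨N - 1, Nat.sub_lt hN one_pos⟩ : Fin N))
      by_contra hcon
      have h3 := hmem N ⟨N - 1, Nat.sub_lt hN one_pos⟩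
      have h4 := (qt_le_iff μ h3.1 h3.2 c).1 (not_lt.1 hcon)
      have h5 : (((⟨N - 1, Nat.sub_lt hN one_pos⟩ : Fin N) : ℕ) : ℝ) = N - 1 := by
        simp only
        exact Nat.cast_pred hN
      rw [h5] at h4
      have h6 : ((N : ℝ) - 1 + 1 / 2) / N = 1 - 1 / 2 / N := by
        field_simp
        ring
      rw [h6] at h4
      linarith
    · intro c hc
      filter_upwards [eventually_gt_atTop 0] with N hN
      have : Nonempty (Fin N) := ⟨⟨0, hN⟩⟩
      exact lt_of_le_of_lt (ciSup_le fun i => hB N i) hc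

theorem qt_comp {μ' : Measure ℝ} [IsProbabilityMeasure μ] [IsProbabilityMeasure μ'] {c : ℝ}
    (h : ∀ x, μ' (Iic x) ≤ μ (Iic (x + c))) {t : ℝ} (ht : 0 < t) (ht1 : t < 1) :
    qt μ t ≤ qt μ' t + c := by
  rw [qt_le_iff μ ht ht1]
  have h1 := (qt_le_iff μ' ht ht1 _).1 le_rfl
  refine h1.trans ?_
  rw [cdf_eq_real, cdf_eq_real, measureReal_def, measureReal_def]
  exact ENNReal.toReal_mono (measure_ne_top _ _) (h _)

end

section

variable {N : ℕ}

theorem pr_comp (hN : 0 < N) {β c : ℝ} (hβ : 0 ≤ β) {a b : Fin N → ℝ}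
    (h : ∀ i, a i ≤ b i + c) (U : Matrix.orthogonalGroup (Fin N) ℝ) :
    pressure N β (U.1ᵀ * Matrix.diagonal a * U.1) ≤
      pressure N β (U.1ᵀ * Matrix.diagonal b * U.1) + β * c / 2 := by
  have hN' : (0 : ℝ) < N := by exact_mod_cast hN
  rw [pr_eq hN, pr_eq hN]
  have h1 : ∀ σ ∈ cube N, β / 2 * qf (U.1ᵀ * Matrix.diagonal a * U.1) σ ≤
      β * c / 2 * N + β / 2 * qf (U.1ᵀ * Matrix.diagonal b * U.1) σ := by
    intro σ hσ
    unfold qf
    rw [quad_form, quad_form]
    have h2 : ∑ i, a i * ((U.1 *ᵥ σ) i) ^ 2 ≤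
        ∑ i, b i * ((U.1 *ᵥ σ) i) ^ 2 + c * N := by
      rw [← norm_rot U hσ, Finset.mul_sum, ← Finset.sum_add_distrib]
      refine Finset.sum_le_sum fun i _ => ?_
      rw [← add_mul]
      exact mul_le_mul_of_nonneg_right (h i) (sq_nonneg _)
    have h3 := mul_le_mul_of_nonneg_left h2 (by positivity : (0 : ℝ) ≤ β / 2)
    linarith
  have h2 : ∑ σ ∈ cube N, Real.exp (β / 2 * qf (U.1ᵀ * Matrix.diagonal a * U.1) σ) ≤
      Real.exp (β * c / 2 * N) *
        ∑ σ ∈ cube N, Real.exp (β / 2 * qf (U.1ᵀ * Matrix.diagonal b * U.1) σ) := by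
    rw [Finset.mul_sum]
    refine Finset.sum_le_sum fun σ hσ => ?_
    rw [← Real.exp_add]
    exact Real.exp_le_exp.2 (h1 σ hσ)
  have h3 := Real.log_le_log (pos_sum β _) h2
  rw [Real.log_mul (Real.exp_pos _).ne' (pos_sum β _).ne', Real.log_exp] at h3
  have h4 := mul_le_mul_of_nonneg_left h3 (by positivity : (0 : ℝ) ≤ 1 / (N : ℝ))
  have h5 : 1 / (N : ℝ) * (β * c / 2 * N) = β * c / 2 := by field_simp
  rw [mul_add, h5] at h4
  linarith

end

end Vale.Agent.P166.H542
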